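import Mathlib

open Real Set
open scoped ContDiff

namespace Vale.Agent.Lib.P229

/-- A smooth function on an open interval around `a` has a smooth primitive there. -/
theorem exists_primitive {w : ℝ → ℝ} {a δ : ℝ} (hδ : 0 < δ)
    (hw : ContDiffOn ℝ ∞ w (Ioo (a - δ) (a + δ))) :
    ∃ P : ℝ → ℝ, ContDiffOn ℝ ∞ P (Ioo (a - δ) (a + δ)) ∧
      ∀ x ∈ Ioo (a - δ) (a + δ), HasDerivAt P (w x) x := by
  set I := Ioo (a - δ) (a + δ) with hI
  have hopen : IsOpen I := isOpen_Ioo
  have hcont : ContinuousOn w I := hw.continuousOn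
  have ha : a ∈ I := by constructor <;> linarith
  have hder : ∀ x ∈ I, HasDerivAt (fun t => ∫ s in a..t, w s) (w x) x := by
    intro x hx
    have hsub : uIcc a x ⊆ I := by
      intro t ht
      rcases (mem_uIcc.mp ht) with h | h
      · exact ⟨by linarith [h.1, ha.1], by linarith [h.2, hx.2]⟩
      · exact ⟨by linarith [h.1, hx.1], by linarith [h.2, ha.2]⟩
    have hint : IntervalIntegrable w MeasureTheory.volume a x :=
      (hcont.mono hsub).intervalIntegrable
    exact intervalIntegral.integral_hasDerivAt_right hint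
      ((hcont.stronglyMeasurableAtFilter hopen) x hx)
      (hcont.continuousAt (hopen.mem_nhds hx))
  refine ⟨fun t => ∫ s in a..t, w s, ?_, hder⟩
  rw [contDiffOn_infty_iff_deriv_of_isOpen hopen]
  refine ⟨fun x hx => (hder x hx).differentiableAt.differentiableWithinAt, ?_⟩
  exact hw.congr fun x hx => (hder x hx).deriv

/-- partial derivative in the first variable from a one-variable derivative -/
theorem partial1 {f : ℝ × ℝ → ℝ} {p : ℝ × ℝ} (hd : DifferentiableAt ℝ f p) {a : ℝ}
    (h : HasDerivAt (fun t => f (t, p.2)) a p.1) : fderiv ℝ f p (1, 0) = a := by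
  have h1 : HasDerivAt (fun t : ℝ => (t, p.2)) ((1 : ℝ), (0 : ℝ)) p.1 :=
    (hasDerivAt_id p.1).prodMk (hasDerivAt_const p.1 p.2)
  have h2 : HasFDerivAt f (fderiv ℝ f p) ((fun t : ℝ => (t, p.2)) p.1) := hd.hasFDerivAt
  have h3 := h2.comp_hasDerivAt p.1 h1
  exact h3.unique h

/-- partial derivative in the second variable from a one-variable derivative -/
theorem partial2 {f : ℝ × ℝ → ℝ} {p : ℝ × ℝ} (hd : DifferentiableAt ℝ f p) {a : ℝ}
    (h : HasDerivAt (fun t => f (p.1, t)) a p.2) : fderiv ℝ f p (0, 1) = a := by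
  have h1 : HasDerivAt (fun t : ℝ => (p.1, t)) ((0 : ℝ), (1 : ℝ)) p.2 :=
    (hasDerivAt_const p.2 p.1).prodMk (hasDerivAt_id p.2)
  have h2 : HasFDerivAt f (fderiv ℝ f p) ((fun t : ℝ => (p.1, t)) p.2) := hd.hasFDerivAt
  have h3 := h2.comp_hasDerivAt p.2 h1
  exact h3.unique h

end Vale.Agent.Lib.P229
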